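import Mathlib.Algebra.Order.Chebyshev
import Mathlib.Algebra.Order.Quantale
import Mathlib.Algebra.Ring.IsFormallyReal
import Mathlib.Analysis.CStarAlgebra.Module.Constructions
import Mathlib.Analysis.Distribution.AEEqOfIntegralContDiff
import Mathlib.Analysis.Fourier.RiemannLebesgueLemma
import Mathlib.Analysis.Normed.Group.Tannery
import Mathlib.Analysis.Normed.Group.Ultra
import Mathlib.Analysis.Real.Pi.Bounds
import Mathlib.CategoryTheory.Countable
import Mathlib.Computability.Reduce
import Mathlib.Data.Finset.Functor
import Mathlib.Data.Int.Star
import Mathlib.Data.Nat.ChineseRemainder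
import Mathlib.MeasureTheory.Measure.HasOuterApproxClosed
import Mathlib.MeasureTheory.Measure.RegularityCompacts
import Mathlib.NumberTheory.Chebyshev
import Mathlib.NumberTheory.Harmonic.Bounds
import Mathlib.NumberTheory.LSeries.PrimesInAP
import Mathlib.NumberTheory.LSeries.SumCoeff
import Mathlib.NumberTheory.Padics.ProperSpace
import Mathlib.Order.CompletePartialOrder
import Mathlib.Order.Filter.AtTopBot.Interval
import Mathlib.Probability.Kernel.IonescuTulcea.Traj
import Mathlib.Probability.Moments.Basic
import Mathlib.RingTheory.Flat.FaithfullyFlat.Algebra
import Mathlib.RingTheory.Flat.TorsionFree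
import Mathlib.RingTheory.PicardGroup
import Mathlib.RingTheory.SimpleRing.Principal
import Mathlib.Tactic
import Mathlib.Topology.Algebra.ProperAction.Basic
import Mathlib.Topology.Connected.Separation
import Mathlib.Topology.MetricSpace.Ultra.TotallySeparated
import Mathlib.Topology.UniformSpace.Uniformizable

/-! The part of Mathlib that the development of this folder uses. -/
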